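import Vale.Agent.Lib.P074.Third.Defs

/-!
# P074 (exponent `1/3`): the Gaussian-weighted, exponentially tilted Prékopa–Leindler inequality

`tilt_of_pl : PLStatement d → TiltStatement d`.

For `A, B, C ⊆ K` with `(A + B)/2 ⊆ C` and `w` an `L`-Lipschitz function on `K`, apply the
Prékopa–Leindler inequality to
`f = 1_A · gw · exp (θ w - κ)`, `g = 1_B · gw · exp (-θ w)`, `h = 1_C · gw`,
with `θ = lam (w_A - w_B) / (2 L²)` and `κ = θ² L² / lam`; the parallelogram law and the
arithmetic–geometric mean inequality give `f x * g y ≤ h ((x + y)/2)²`, and Jensen's inequality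
(in the elementary form `exp s ≥ 1 + s`) bounds the two integrals on the left from below.
-/

namespace Vale.Agent.Lib.P074

open MeasureTheory ENNReal

namespace Tilt

variable {d : ℕ}

lemma gw_continuous (lam : ℝ) : Continuous (gw lam : E d → ℝ) := by
  unfold gw
  fun_prop

lemma gw_pos (lam : ℝ) (x : E d) : 0 < gw lam x := Real.exp_pos _

/-- The parallelogram law for the Gaussian weight. -/
lemma gw_mul_gw (lam : ℝ) (x y : E d) :
    gw lam x * gw lam y =
      gw lam ((1 / 2 : ℝ) • (x + y)) ^ 2 * Real.exp (-(lam / 4) * ‖x - y‖ ^ 2) := by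
  unfold gw
  rw [← Real.exp_add, ← Real.exp_nat_mul, ← Real.exp_add]
  congr 1
  push_cast
  have h1 : ‖(1 / 2 : ℝ) • (x + y)‖ ^ 2 = ‖x + y‖ ^ 2 / 4 := by
    rw [norm_smul, mul_pow]
    norm_num
    ring
  have h2 := parallelogram_law_with_norm ℝ x y
  rw [h1]
  linear_combination (lam / 4) * h2

/-- The arithmetic–geometric mean step. -/
lemma amgm (lam L θ t s : ℝ) (hlam : 0 < lam) (hs : |s| ≤ L * t) :
    θ * s - θ ^ 2 * L ^ 2 / lam ≤ lam / 4 * t ^ 2 := by
  have h1 : θ * s ≤ |θ| * (L * t) := by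
    calc θ * s ≤ |θ * s| := le_abs_self _
      _ = |θ| * |s| := abs_mul _ _
      _ ≤ |θ| * (L * t) := by gcongr
  have h2 : θ ^ 2 * L ^ 2 / lam = (|θ| * L) ^ 2 / lam := by rw [mul_pow, sq_abs]
  have h3 : lam / 4 * t ^ 2 - |θ| * (L * t) + (|θ| * L) ^ 2 / lam
      = (lam * t / 2 - |θ| * L) ^ 2 / lam := by
    field_simp
    ring
  have h4 : 0 ≤ (lam * t / 2 - |θ| * L) ^ 2 / lam := by positivity
  rw [h2]
  linarith

/-- The pointwise hypothesis of the Prékopa–Leindler inequality. -/
lemma pointwise (lam L θ : ℝ) (hlam : 0 < lam) (w : E d → ℝ) (x y : E d)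
    (hxy : |w x - w y| ≤ L * ‖x - y‖) :
    Real.exp (-(θ ^ 2 * L ^ 2 / lam)) * (gw lam x * Real.exp (θ * w x)) *
        (gw lam y * Real.exp (-θ * w y))
      ≤ gw lam ((1 / 2 : ℝ) • (x + y)) ^ 2 := by
  have h := amgm lam L θ ‖x - y‖ (w x - w y) hlam hxy
  have e : Real.exp (-(θ ^ 2 * L ^ 2 / lam)) * (gw lam x * Real.exp (θ * w x)) *
        (gw lam y * Real.exp (-θ * w y))
      = gw lam ((1 / 2 : ℝ) • (x + y)) ^ 2 *
        Real.exp (-(lam / 4) * ‖x - y‖ ^ 2 + (θ * (w x - w y) - θ ^ 2 * L ^ 2 / lam)) := by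
    have h5 : Real.exp (-(lam / 4) * ‖x - y‖ ^ 2 + (θ * (w x - w y) - θ ^ 2 * L ^ 2 / lam))
        = Real.exp (-(lam / 4) * ‖x - y‖ ^ 2) * (Real.exp (-(θ ^ 2 * L ^ 2 / lam)) *
          Real.exp (θ * w x) * Real.exp (-θ * w y)) := by
      rw [← Real.exp_add, ← Real.exp_add, ← Real.exp_add]
      congr 1
      ring
    rw [h5]
    calc Real.exp (-(θ ^ 2 * L ^ 2 / lam)) * (gw lam x * Real.exp (θ * w x)) *
          (gw lam y * Real.exp (-θ * w y))
        = (gw lam x * gw lam y) * (Real.exp (-(θ ^ 2 * L ^ 2 / lam)) *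
            Real.exp (θ * w x) * Real.exp (-θ * w y)) := by ring
      _ = gw lam ((1 / 2 : ℝ) • (x + y)) ^ 2 * Real.exp (-(lam / 4) * ‖x - y‖ ^ 2) *
            (Real.exp (-(θ ^ 2 * L ^ 2 / lam)) *
              Real.exp (θ * w x) * Real.exp (-θ * w y)) := by rw [gw_mul_gw]
      _ = gw lam ((1 / 2 : ℝ) • (x + y)) ^ 2 * (Real.exp (-(lam / 4) * ‖x - y‖ ^ 2) *
            (Real.exp (-(θ ^ 2 * L ^ 2 / lam)) *
              Real.exp (θ * w x) * Real.exp (-θ * w y))) := by ring
  rw [e]
  have h6 : Real.exp (-(lam / 4) * ‖x - y‖ ^ 2 + (θ * (w x - w y) - θ ^ 2 * L ^ 2 / lam)) ≤ 1 := by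
    rw [Real.exp_le_one_iff]
    linarith
  calc gw lam ((1 / 2 : ℝ) • (x + y)) ^ 2 *
        Real.exp (-(lam / 4) * ‖x - y‖ ^ 2 + (θ * (w x - w y) - θ ^ 2 * L ^ 2 / lam))
      ≤ gw lam ((1 / 2 : ℝ) • (x + y)) ^ 2 * 1 := by gcongr
    _ = gw lam ((1 / 2 : ℝ) • (x + y)) ^ 2 := mul_one _

/-- Jensen's inequality for the exponential, in the elementary form needed here. -/
lemma jensen (μ : Measure (E d)) (u v : E d → ℝ) (t : ℝ) (hu : Integrable u μ)
    (huv : Integrable (fun x => u x * v x) μ)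
    (hF : Integrable (fun x => u x * Real.exp (t * v x)) μ) (hu0 : ∀ x, 0 ≤ u x)
    (ha : 0 < ∫ x, u x ∂μ) :
    (∫ x, u x ∂μ) * Real.exp (t * ((∫ x, u x * v x ∂μ) / ∫ x, u x ∂μ))
      ≤ ∫ x, u x * Real.exp (t * v x) ∂μ := by
  set a := ∫ x, u x ∂μ with ha_def
  set m := (∫ x, u x * v x ∂μ) / a with hm
  have hma : ∫ x, u x * v x ∂μ = m * a := by
    rw [hm]
    field_simp
  have hpt : ∀ x, Real.exp (t * m) * ((1 - t * m) * u x + t * (u x * v x))
      ≤ u x * Real.exp (t * v x) := by
    intro x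
    have h1 : t * (v x - m) + 1 ≤ Real.exp (t * (v x - m)) := Real.add_one_le_exp _
    have h2 : Real.exp (t * v x) = Real.exp (t * m) * Real.exp (t * (v x - m)) := by
      rw [← Real.exp_add]
      congr 1
      ring
    rw [h2]
    have h3 : Real.exp (t * m) * ((1 - t * m) * u x + t * (u x * v x))
        = u x * (Real.exp (t * m) * (t * (v x - m) + 1)) := by ring
    rw [h3]
    have h4 := hu0 x
    gcongr
  have hint : Integrable
      (fun x => Real.exp (t * m) * ((1 - t * m) * u x + t * (u x * v x))) μ :=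
    ((hu.const_mul _).add (huv.const_mul _)).const_mul _
  have hmono := integral_mono hint hF hpt
  have e : ∫ x, Real.exp (t * m) * ((1 - t * m) * u x + t * (u x * v x)) ∂μ
      = a * Real.exp (t * m) := by
    rw [integral_const_mul, integral_add (hu.const_mul _) (huv.const_mul _),
      integral_const_mul, integral_const_mul, hma]
    ring
  rw [e] at hmono
  exact hmono

end Tilt

open Vale.Agent.Lib.P074.Tilt in
/-- The Prékopa–Leindler inequality implies its Gaussian-weighted, exponentially tilted form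
for a triple of sets. -/
theorem tilt_of_pl (d : ℕ) (hpl : PLStatement d) : TiltStatement d := by
  intro lam L hlam hL K A B C hK hA hB hC hAK hBK hCK hmid w hw hLip ha hb
  set a := ∫ x in A, gw lam x with ha_def
  set b := ∫ x in B, gw lam x with hb_def
  set wA := (∫ x in A, gw lam x * w x) / a with hwA
  set wB := (∫ x in B, gw lam x * w x) / b with hwB
  set θ := lam * (wA - wB) / (2 * L ^ 2) with hθ
  set κ := θ ^ 2 * L ^ 2 / lam with hκ
  -- continuity
  have hgc : Continuous (gw lam : E d → ℝ) := gw_continuous lam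
  have hFc : Continuous (fun x : E d => gw lam x * Real.exp (θ * w x)) := by fun_prop
  have hGc : Continuous (fun x : E d => gw lam x * Real.exp (-θ * w x)) := by fun_prop
  have hgwc : Continuous (fun x : E d => gw lam x * w x) := by fun_prop
  -- integrability on subsets of `K`
  have hint : ∀ u : E d → ℝ, Continuous u → ∀ S : Set (E d), S ⊆ K →
      IntegrableOn u S := by
    intro u hu S hS
    exact (hu.continuousOn.integrableOn_compact hK).mono_set hS
  -- the Prékopa–Leindler inequality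
  have hPL := hpl
    (A.indicator fun x => ENNReal.ofReal (Real.exp (-κ) * (gw lam x * Real.exp (θ * w x))))
    (B.indicator fun y => ENNReal.ofReal (gw lam y * Real.exp (-θ * w y)))
    (C.indicator fun z => ENNReal.ofReal (gw lam z))
    (Measurable.indicator (by fun_prop) hA)
    (Measurable.indicator (by fun_prop) hB)
    (Measurable.indicator (by fun_prop) hC)
    (by
      intro x y
      by_cases hx : x ∈ A
      · by_cases hy : y ∈ B
        · rw [Set.indicator_of_mem hx, Set.indicator_of_mem hy,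
            Set.indicator_of_mem (hmid x hx y hy),
            ← ENNReal.ofReal_mul (mul_nonneg (Real.exp_pos _).le
              (mul_nonneg (gw_pos _ _).le (Real.exp_pos _).le)),
            ← ENNReal.ofReal_pow (gw_pos _ _).le]
          apply ENNReal.ofReal_le_ofReal
          exact pointwise lam L θ hlam w x y (hLip x (hAK hx) y (hBK hy))
        · rw [Set.indicator_of_notMem hy]
          simp
      · rw [Set.indicator_of_notMem hx]
        simp)
  have hIA : IntegrableOn (fun x => Real.exp (-κ) * (gw lam x * Real.exp (θ * w x))) A :=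
    (hint _ hFc A hAK).const_mul _
  have hIB : IntegrableOn (fun y => gw lam y * Real.exp (-θ * w y)) B := hint _ hGc B hBK
  have hIC : IntegrableOn (fun z => gw lam z) C := hint _ hgc C hCK
  rw [lintegral_indicator hA, lintegral_indicator hB, lintegral_indicator hC,
    ← ofReal_integral_eq_lintegral_ofReal hIA (Filter.Eventually.of_forall fun x =>
      mul_nonneg (Real.exp_pos _).le (mul_nonneg (gw_pos _ _).le (Real.exp_pos _).le)),
    ← ofReal_integral_eq_lintegral_ofReal hIB (Filter.Eventually.of_forall fun x =>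
      mul_nonneg (gw_pos _ _).le (Real.exp_pos _).le),
    ← ofReal_integral_eq_lintegral_ofReal hIC (Filter.Eventually.of_forall fun x =>
      (gw_pos _ _).le)] at hPL
  have hIA0 : 0 ≤ ∫ x in A, Real.exp (-κ) * (gw lam x * Real.exp (θ * w x)) :=
    integral_nonneg fun x =>
      mul_nonneg (Real.exp_pos _).le (mul_nonneg (gw_pos _ _).le (Real.exp_pos _).le)
  have hIB0 : 0 ≤ ∫ y in B, gw lam y * Real.exp (-θ * w y) :=
    integral_nonneg fun x => mul_nonneg (gw_pos _ _).le (Real.exp_pos _).le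
  have hIC0 : 0 ≤ ∫ z in C, gw lam z := integral_nonneg fun x => (gw_pos _ _).le
  rw [← ENNReal.ofReal_mul hIA0, ← ENNReal.ofReal_pow hIC0,
    ENNReal.ofReal_le_ofReal_iff (sq_nonneg _)] at hPL
  -- the Jensen lower bounds
  have hJA := jensen (volume.restrict A) (gw lam) w θ (hint _ hgc A hAK) (hint _ hgwc A hAK)
    (hint _ hFc A hAK) (fun x => (gw_pos _ _).le) ha
  have hJB := jensen (volume.restrict B) (gw lam) w (-θ) (hint _ hgc B hBK) (hint _ hgwc B hBK)
    (hint _ hGc B hBK) (fun x => (gw_pos _ _).le) hb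
  rw [integral_const_mul] at hPL hIA0
  have hexp : Real.exp (lam * (wA - wB) ^ 2 / (4 * L ^ 2))
      = Real.exp (-κ) * Real.exp (θ * wA) * Real.exp (-θ * wB) := by
    rw [← Real.exp_add, ← Real.exp_add]
    congr 1
    rw [hκ, hθ]
    field_simp
    ring
  calc a * b * Real.exp (lam * (wA - wB) ^ 2 / (4 * L ^ 2))
      = Real.exp (-κ) * (a * Real.exp (θ * wA)) * (b * Real.exp (-θ * wB)) := by
        rw [hexp]
        ring
    _ ≤ Real.exp (-κ) * (∫ x in A, gw lam x * Real.exp (θ * w x)) *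
          ∫ y in B, gw lam y * Real.exp (-θ * w y) := by
        have h1 : 0 ≤ a * Real.exp (θ * wA) := mul_nonneg ha.le (Real.exp_pos _).le
        have h2 : 0 ≤ b * Real.exp (-θ * wB) := mul_nonneg hb.le (Real.exp_pos _).le
        have h3 : 0 ≤ Real.exp (-κ) := (Real.exp_pos _).le
        gcongr
    _ ≤ (∫ x in C, gw lam x) ^ 2 := hPL

end Vale.Agent.Lib.P074
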